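import Crest.Agent.R27.X.Defs
import Crest.Agent.R27.Api.SumO
import Crest.Agent.R27.A.All
import Crest.Agent.R27.Ku.Gam

/-! Row 27, block X (owner helper12): from the mean square to the continuation of `1 / ζ_R`. -/

set_option autoImplicit false

namespace Crest.Agent.R27.Z

open Complex MeasureTheory Filter Set Asymptotics
open scoped Real Topology ComplexConjugate Classical
open Crest.Agent.R17 (LN LNt Adm DA DD SS LN_mul_arg one_add_log_rpow_le differentiable_LNt LNt_ne_zero)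
open Crest.Agent.R27.Ab

variable [Bd]

theorem x_adm {σ : ℝ} (h : 1 < σ) {ψ : O → ℂ} (hψ : ∀ n, ‖ψ n‖ ≤ 1) :
    Adm (fun n : Pr => mu n * ψ n) (fun n => nm n) σ :=
  adm_Pr h (M := 1) fun n => by
    rw [norm_mul]
    exact mul_le_one₀ (norm_mu_le _) (norm_nonneg _) (hψ n)

theorem x_point {l n : O} (hl : Prim l) (hn : Prim n) (z : ℂ) :
    mu n * z = ∑ d ∈ pdiv l, if d ∣ n then (if ∃ m, n = d * m ∧ IsCoprime m l then mu n * z else 0) else 0 := by
  by_cases hs : Squarefree n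
  · obtain ⟨g, n', l', hg, hn', e1, e2, hc⟩ := hn.exists_gcd l
    have h1 : IsCoprime n' g := by
      rw [e1] at hs
      exact (IsRelPrime.of_squarefree_mul hs).isCoprime.symm
    have h2 : IsCoprime n' l := e2 ▸ h1.mul_right hc
    rw [Finset.sum_eq_single g]
    · rw [if_pos ⟨n', e1⟩, if_pos ⟨n', e1, h2⟩]
    · intro d hd hne
      obtain ⟨hd1, hd2⟩ := pra_of_mem_pdiv hd
      split_ifs with h3 h4
      · obtain ⟨m, e3, h5⟩ := h4
        refine absurd (hd1.dvd_antisymm hg ?_ ?_) hne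
        · exact (h2.of_isCoprime_of_dvd_right hd2).symm.dvd_of_dvd_mul_right (e1 ▸ h3)
        · exact (h5.of_isCoprime_of_dvd_right ⟨l', e2⟩).symm.dvd_of_dvd_mul_right (e3 ▸ ⟨n', e1⟩)
      · rfl
      · rfl
    · intro h
      exact absurd ((mem_pdiv hl.ne_zero).2 ⟨hg, l', e2⟩) h
  · simp [mu_eq_zero.2 hs]

theorem x_split {l : O} (hl : Prim l) {a N : ℝ} (ha : 0 < a) (hN : 0 < N) :
    MS (fun _ : O => 1) a N 0 = ∑ d ∈ pdiv l, mu d * MS (fun n => 1 * sx (l ^ 6) n) a (N / nm d) 0 := by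
  have hs := ((x_adm (ψ := fun _ => 1) one_lt_two (by simp)).summable_SS ha hN 0)
  unfold MS
  have h1 : ∀ n : Pr, mu n * 1 * LN a N 0 (nm n) = ∑ d ∈ pdiv l, if d ∣ (n : O) then
      (if ∃ m, (n : O) = d * m ∧ IsCoprime m l then mu n * LN a N 0 (nm n) else 0) else 0 := fun n => by
    rw [mul_one]
    exact x_point hl (Pr_prim n) _
  rw [tsum_congr h1, Summable.tsum_finsetSum]
  · refine Finset.sum_congr rfl fun d hd => ?_
    obtain ⟨hd1, hd2⟩ := pra_of_mem_pdiv hd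
    rw [tsum_Pr_dvd hd1 fun n => if ∃ m, n = d * m ∧ IsCoprime m l then mu n * LN a N 0 (nm n) else 0,
      ← tsum_mul_left]
    refine tsum_congr fun m => ?_
    have hm := (Pr_prim m).ne_zero
    beta_reduce
    rw [sx_pow_left l _ (by norm_num : 6 ≠ 0), sx_pow_six, nm_mul, LN_mul_arg]
    by_cases hc : IsCoprime (m : O) l
    · rw [if_pos ⟨m, rfl, hc⟩, if_pos ⟨hm, hc.symm⟩, mu_mul (hc.of_isCoprime_of_dvd_right hd2).symm]
      ring
    · rw [if_neg, if_neg fun h => hc h.2.symm]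
      · simp
      · rintro ⟨m', e, h⟩
        exact hc (mul_left_cancel₀ hd1.ne_zero e ▸ h)
  · intro d _
    refine Summable.of_norm_bounded hs fun n => ?_
    rw [mul_one]
    split_ifs
    · exact le_rfl
    all_goals exact norm_zero.trans_le (norm_nonneg _)

/-- there are many ideals (Poisson summation with `Ψ = 1`) -/
theorem x_lower {ε : ℝ} (hε : 0 < ε) : ∃ c Y₀ : ℝ, 0 < c ∧ ∀ Y : ℝ, Y₀ ≤ Y → c * Y ^ (1 - ε) ≤ (ball Y).card := by
  obtain ⟨C₁, hC₁⟩ := isW.upper ε hε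
  obtain ⟨C₂, hC₂⟩ := isW.upper 2 two_pos
  obtain ⟨C₃, hC₃, h₃⟩ := sum_nm_rpow_tail (σ := 2) one_lt_two
  have hw := isW.w_pos
  have hW := isW.nonneg
  have hC₁0 : 0 < |C₁| + 1 := by positivity
  set T : ℝ := 2 * (|C₂| + 1) * C₃ / w0 with hT
  have hT0 : 0 < T := by positivity
  refine ⟨w0 / (4 * (|C₁| + 1)) * T ^ (-(1 - ε)), 4 * T, by positivity, fun Y hY => ?_⟩
  set K := Y / T with hK
  have hK4 : 4 ≤ K := by rw [hK, le_div_iff₀ hT0]; exact hY
  have hK0 : 0 < K := by linarith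
  have hY0 : 0 < Y := by linarith
  have hb : ∀ n : O, Prim n → W (nm n / K) ≤ (|C₂| + 1) * K ^ 2 * nm n ^ (-(2 : ℝ)) := fun n hn => by
    have h0 := nm_pos hn.ne_zero
    refine (hC₂ _ (by positivity)).trans ?_
    rw [Real.div_rpow h0.le hK0.le, Real.rpow_neg hK0.le, Real.rpow_two, div_inv_eq_mul, mul_assoc,
      mul_comm (K ^ 2)]
    exact mul_le_mul_of_nonneg_right (by linarith [le_abs_self C₂]) (by positivity)
  have hs : Summable fun n : Pr => W (nm n / K) :=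
    Summable.of_nonneg_of_le (fun _ => hW _) (fun n => hb n (Pr_prim n))
      ((summable_nm_rpow one_lt_two).mul_left _)
  have hP := isW.poisson 1 (fun _ => 1) K one_ne_zero (fun _ _ _ => rfl) (fun _ _ _ => rfl) hK0
  have hF : ∀ h : O, FT 1 (fun _ => 1) h = 1 := fun h => by
    unfold Ab.FT
    rw [rsum_unit isUnit_one (fun a b _ => by rw [eQ_of_dvd (one_dvd _), eQ_of_dvd (one_dvd _)]),
      eQ_of_dvd (one_dvd _), one_mul]
  simp only [hF, one_mul, mul_one, nm_unit (isUnit_one (M := O)), div_one, ← Complex.ofReal_tsum] at hP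
  have hP' : w0 + ∑' n : Pr, W (nm n / K) = K * (w0 + ∑' n : Pr, W (nm n / (1 / K))) := by exact_mod_cast hP
  have h0 : 0 ≤ ∑' n : Pr, W (nm n / (1 / K)) := tsum_nonneg fun _ => hW _
  have h1 : ∑' n : Pr, W (nm n / K) ≤ (ball Y).card * ((|C₁| + 1) * K ^ ε) + w0 * K / 2 := by
    refine hs.tsum_le_of_sum_le fun S => ?_
    rw [← Finset.sum_image (f := fun n : O => W (nm n / K)) (g := fun n : Pr => (n : O))
      fun _ _ _ _ h => Subtype.ext h]
    set S' := S.image fun n : Pr => (n : O)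
    have hS : ∀ n ∈ S', Prim n := fun n hn => by
      obtain ⟨m, -, rfl⟩ := Finset.mem_image.1 hn
      exact Pr_prim m
    rw [← Finset.sum_filter_add_sum_filter_not S' fun n => nm n ≤ Y]
    refine add_le_add ?_ ?_
    · refine (Finset.sum_le_card_nsmul _ _ ((|C₁| + 1) * K ^ ε) fun n hn => ?_).trans ?_
      · have hn' := hS n (Finset.mem_filter.1 hn).1
        have h2 := one_le_nm hn'.ne_zero
        refine (hC₁ _ (by positivity)).trans ?_
        refine mul_le_mul (by linarith [le_abs_self C₁]) ?_ (by positivity) hC₁0.le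
        rw [Real.rpow_neg (by positivity), ← Real.inv_rpow (by positivity), inv_div]
        exact Real.rpow_le_rpow (by positivity) (div_le_self hK0.le h2) hε.le
      · rw [nsmul_eq_mul]
        refine mul_le_mul_of_nonneg_right ?_ (by positivity)
        exact_mod_cast Finset.card_le_card fun n hn =>
          mem_ball.2 ⟨hS n (Finset.mem_filter.1 hn).1, (Finset.mem_filter.1 hn).2⟩
    · refine (Finset.sum_le_sum fun n hn => hb n (hS n (Finset.mem_filter.1 hn).1)).trans ?_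
      rw [← Finset.mul_sum]
      refine (mul_le_mul_of_nonneg_left (h₃ Y _ hY0 fun n hn =>
        ⟨hS n (Finset.mem_filter.1 hn).1, (not_le.1 (Finset.mem_filter.1 hn).2).le⟩) (by positivity)).trans_eq ?_
      rw [show (1 : ℝ) - 2 = -1 by norm_num, Real.rpow_neg_one, hK, hT]
      field_simp
  have h2 : w0 * K / 4 ≤ (ball Y).card * ((|C₁| + 1) * K ^ ε) := by nlinarith
  have h3 : T ^ (-(1 - ε)) * Y ^ (1 - ε) = K / K ^ ε := by
    rw [Real.rpow_neg hT0.le, mul_comm, ← div_eq_mul_inv, ← Real.div_rpow hY0.le hT0.le, ← hK,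
      Real.rpow_sub hK0, Real.rpow_one]
  have hKε : 0 < K ^ ε := by positivity
  rw [mul_assoc, h3, div_mul_div_comm, div_le_iff₀ (by positivity)]
  nlinarith

/-- the mean square that the extraction needs -/
def XM : Prop :=
  ∀ ε : ℝ, 0 < ε → ∃ C : ℝ, ∀ (U X : ℝ) (A : Finset O), 1 ≤ X → X ≤ U → (∀ k ∈ A, Prim k ∧ nm k ≤ U) →
    ∑ k ∈ A, ‖MS (fun n => 1 * sx k n) 1 X 0‖ ^ 2 ≤ C * U ^ ε * (U * X)

theorem x_bound (h : XM) {ε : ℝ} (hε : 0 < ε) :
    (fun N : ℝ => MS (fun _ : O => 1) 1 N 0) =O[atTop] fun N => N ^ (11 / 12 + ε) := by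
  obtain ⟨C, hC⟩ := h ε hε
  obtain ⟨c, Y₀, hc, hlow⟩ := x_lower hε
  obtain ⟨Cl', hCl, hlog⟩ := one_add_log_rpow_le 1 hε
  have hcc := cc_pos
  refine IsBigO.of_bound (√(cc * |C|) * (4 * cc * Cl') / c) ?_
  filter_upwards [eventually_ge_atTop 1, eventually_ge_atTop (|Y₀| ^ 6)] with N hN hNY
  have hN0 : 0 < N := by linarith
  set Y := N ^ (1 / 6 : ℝ) with hY
  have hY6 : Y ^ 6 = N := by
    rw [hY, ← Real.rpow_natCast, ← Real.rpow_mul hN0.le]
    norm_num
  have hY1 : 1 ≤ Y := Real.one_le_rpow hN (by norm_num)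
  have hY0 : 0 < Y := by linarith
  have hYN : Y ≤ N := hY6 ▸ le_self_pow₀ hY1 (by norm_num)
  have hYY : Y₀ ≤ Y := (le_abs_self _).trans
    (le_of_pow_le_pow_left₀ (n := 6) (by norm_num) hY0.le (hY6 ▸ hNY))
  set M := fun l d : O => ‖MS (fun n => 1 * sx (l ^ 6) n) 1 (N / nm d) 0‖ with hM
  have k1 : ∀ l ∈ ball Y, ‖MS (fun _ : O => 1) 1 N 0‖ ≤ ∑ d ∈ ball Y, if d ∣ l then M l d else 0 := fun l hl => by
    obtain ⟨hl1, hl2⟩ := mem_ball.1 hl
    rw [x_split hl1 one_pos hN0, ← Finset.sum_filter]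
    refine (norm_sum_le _ _).trans ((Finset.sum_le_sum fun d _ => ?_).trans
      (Finset.sum_le_sum_of_subset_of_nonneg (f := M l) (fun d hd => ?_) fun _ _ _ => norm_nonneg _))
    · rw [norm_mul]
      exact mul_le_of_le_one_left (norm_nonneg _) (norm_mu_le _)
    · obtain ⟨hd1, hd2⟩ := pra_of_mem_pdiv hd
      exact Finset.mem_filter.2 ⟨mem_ball.2 ⟨hd1, (nm_le_of_dvd hd2 hl1.ne_zero).trans hl2⟩, hd2⟩
  have k2 : ∀ d ∈ ball Y, ∑ l ∈ ball Y, (if d ∣ l then M l d else 0) ≤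
      √(cc * |C|) * √(Y * N ^ ε) * N * (nm d)⁻¹ := fun d hd => by
    obtain ⟨hd1, hd2⟩ := mem_ball.1 hd
    have hd3 := one_le_nm hd1.ne_zero
    rw [← Finset.sum_filter]
    set B := (ball Y).filter fun l => d ∣ l with hB
    have hB1 : ∀ l ∈ B, Prim l ∧ d ∣ l ∧ nm l ≤ Y := fun l hl =>
      ⟨(mem_ball.1 (Finset.mem_filter.1 hl).1).1, (Finset.mem_filter.1 hl).2,
        (mem_ball.1 (Finset.mem_filter.1 hl).1).2⟩
    have h1 := card_dvd_le hY0.le hd1 hB1
    have h2 := hC N (N / nm d) (B.image fun l => l ^ 6)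
      (by rw [le_div_iff₀ (by linarith)]; linarith) (div_le_self hN0.le hd3) fun k hk => by
        obtain ⟨l, hl, rfl⟩ := Finset.mem_image.1 hk
        refine ⟨(hB1 l hl).1.pow 6, ?_⟩
        rw [nm_pow, ← hY6]
        exact pow_le_pow_left₀ (nm_nonneg _) (hB1 l hl).2.2 6
    rw [Finset.sum_image fun l hl l' hl' e => (hB1 l hl).1.dvd_antisymm (hB1 l' hl').1
      ((IsIntegrallyClosed.pow_dvd_pow_iff (n := 6) (by norm_num)).1 (dvd_of_eq e))
      ((IsIntegrallyClosed.pow_dvd_pow_iff (n := 6) (by norm_num)).1 (dvd_of_eq e.symm))] at h2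
    have h3 : (∑ l ∈ B, M l d) ^ 2 ≤ B.card * ∑ l ∈ B, M l d ^ 2 := sq_sum_le_card_mul_sum_sq
    have h4 : C * N ^ ε * (N * (N / nm d)) ≤ |C| * N ^ ε * (N * (N / nm d)) :=
      mul_le_mul_of_nonneg_right (mul_le_mul_of_nonneg_right (le_abs_self C) (by positivity)) (by positivity)
    refine (abs_le_of_sq_le_sq' (h3.trans ?_) (by positivity)).2
    refine (mul_le_mul h1 (h2.trans h4) (Finset.sum_nonneg fun _ _ => sq_nonneg _) (by positivity)).trans_eq ?_
    rw [mul_pow, mul_pow, mul_pow, Real.sq_sqrt (by positivity), Real.sq_sqrt (by positivity)]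
    field_simp
  have k3 : ((ball Y).card : ℝ) * ‖MS (fun _ : O => 1) 1 N 0‖ ≤
      √(cc * |C|) * √(Y * N ^ ε) * N * (4 * cc * (Cl' * Y ^ ε)) := by
    have h1 := Finset.sum_le_sum k1
    rw [Finset.sum_const, nsmul_eq_mul, Finset.sum_comm] at h1
    refine h1.trans ((Finset.sum_le_sum k2).trans ?_)
    rw [← Finset.mul_sum]
    refine mul_le_mul_of_nonneg_left ((sum_inv_nm_le hY1 fun n hn => mem_ball.1 hn).trans ?_) (by positivity)
    have := hlog Y hY1
    rw [Real.rpow_one] at this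
    exact mul_le_mul_of_nonneg_left this (by positivity)
  have k4 := (mul_le_mul_of_nonneg_right (hlow Y hYY) (norm_nonneg _)).trans k3
  have e1 : √(Y * N ^ ε) * N * Y ^ ε = N ^ (11 / 12 + 5 / 6 * ε) * Y ^ (1 - ε) := by
    rw [Real.sqrt_eq_rpow, hY, ← Real.rpow_add hN0, ← Real.rpow_mul hN0.le, ← Real.rpow_mul hN0.le,
      ← Real.rpow_mul hN0.le, ← Real.rpow_add_one hN0.ne', ← Real.rpow_add hN0, ← Real.rpow_add hN0]
    congr 1
    ring
  have k5 : N ^ (11 / 12 + 5 / 6 * ε) ≤ N ^ (11 / 12 + ε) := Real.rpow_le_rpow_of_exponent_le hN (by linarith)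
  have hYe : 0 < Y ^ (1 - ε) := by positivity
  rw [Real.norm_of_nonneg (by positivity), div_mul_eq_mul_div, le_div_iff₀ hc]
  refine le_of_mul_le_mul_right ?_ hYe
  calc _ = c * Y ^ (1 - ε) * ‖MS (fun _ : O => 1) 1 N 0‖ := by ring
    _ ≤ _ := k4
    _ = √(cc * |C|) * (4 * cc * Cl') * (√(Y * N ^ ε) * N * Y ^ ε) := by ring
    _ ≤ _ := by
      rw [e1, ← mul_assoc]
      gcongr

theorem x_mu {s : ℂ} (hs : 1 < s.re) : DD (fun n : Pr => mu n * 1) (fun n => nm n) s * zR O s = 1 := by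
  have s2 := (x_adm (ψ := fun _ => 1) hs (by simp)).summable_DD rfl
  have s1 := (adm_Pr hs (c := fun _ => 1) (M := 1) (by simp)).summable_DD rfl
  simp only [one_mul] at s1
  unfold DD zR
  rw [tsum_mul_tsum_of_summable_norm s2 s1]
  have s3 := summable_mul_of_summable_norm s2 s1
  rw [tsum_Pr_pairs (F := fun a b => mu a * 1 * (nm a : ℂ) ^ (-s) * (nm b : ℂ) ^ (-s)) s3]
  have h2 : ∀ n : Pr, ∑ p ∈ anti n, mu p.1 * 1 * (nm p.1 : ℂ) ^ (-s) * (nm p.2 : ℂ) ^ (-s) =
      if n = 1 then 1 else 0 := by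
    intro n
    have hn := Pr_prim n
    have h3 : ∀ p ∈ anti (n : O), mu p.1 * 1 * (nm p.1 : ℂ) ^ (-s) * (nm p.2 : ℂ) ^ (-s) =
        mu p.1 * (nm n : ℂ) ^ (-s) := by
      intro p hp
      rw [← (mem_anti.1 hp).2.2, nm_mul, ofReal_mul, mul_cpow_ofReal_nonneg (nm_nonneg _) (nm_nonneg _)]
      ring
    have h4 : ∑ p ∈ anti (n : O), mu p.1 = ∑ d ∈ pdiv n, mu d := by
      refine Finset.sum_bij (fun p _ => p.1) ?_ ?_ ?_ fun _ _ => rfl
      · intro p hp
        obtain ⟨h₁, -, h⟩ := mem_anti.1 hp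
        exact (mem_pdiv hn.ne_zero).2 ⟨h₁, h ▸ dvd_mul_right _ _⟩
      · intro p hp q hq h
        obtain ⟨h₁, -, h₃⟩ := mem_anti.1 hp
        obtain ⟨-, -, h₄⟩ := mem_anti.1 hq
        refine Prod.ext h (mul_left_cancel₀ h₁.ne_zero ?_)
        rw [h₃, ← h₄]
        exact congrArg (· * q.2) h.symm
      · intro d hd
        obtain ⟨h₁, h₂⟩ := (mem_pdiv hn.ne_zero).1 hd
        obtain ⟨m, hm, h⟩ := h₁.exists_mul hn h₂
        exact ⟨(d, m), mem_anti.2 ⟨h₁, hm, h.symm⟩, rfl⟩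
    rw [Finset.sum_congr rfl h3, ← Finset.sum_mul, h4, sum_mu_pdiv hn]
    by_cases h1 : n = 1
    · subst h1
      simp [nm_unit (isUnit_one (M := O))]
    · have hn' : (n : O) ≠ 1 := fun h => h1 (Subtype.ext h)
      simp [h1, hn']
  rw [tsum_congr h2]
  simp

theorem x_zf (h : XM) : StZF O := by
  set f := fun N : ℝ => MS (fun _ : O => 1) 1 N 0 with hf
  have hA : ∀ {σ : ℝ}, 1 < σ → Adm (fun n : Pr => mu n * 1) (fun n => nm n) σ := fun hσ =>
    x_adm (ψ := fun _ => 1) hσ (by simp)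
  refine ⟨fun s => mellin f (-s) / LNt 1 s, fun s hs => ?_, fun s hs => ?_⟩
  · refine (DifferentiableAt.div ?_ (differentiable_LNt 1 s) (LNt_ne_zero one_ne_zero s)).differentiableWithinAt
    have hs' : 11 / 12 < s.re := hs
    have hc : ContinuousOn f (Ioi 0) := by
      have h1 := ((hA one_lt_two).continuous_SS one_pos one_pos).comp_continuousOn
        (s := Ioi 0) (f := fun Y : ℝ => (Real.log Y, (0 : ℝ)))
        ((Real.continuousOn_log.mono fun Y hY => ne_of_gt hY).prodMk continuousOn_const)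
      refine h1.congr fun Y hY => ?_
      simp only [Function.comp, one_mul, Real.exp_log (mem_Ioi.1 hY)]
      rfl
    have h2 : DifferentiableAt ℂ (mellin f) (-s) := by
      refine mellin_differentiableAt_of_isBigO_rpow (a := -(11 / 12 + (s.re - 11 / 12) / 2)) (b := -(s.re + 1))
        (hc.locallyIntegrableOn measurableSet_Ioi) ?_ (by rw [neg_re]; linarith) ?_ (by rw [neg_re]; linarith)
      · simpa only [neg_neg] using x_bound h (ε := (s.re - 11 / 12) / 2) (by linarith)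
      · have h3 := hA (σ := s.re + 1) (by linarith)
        refine IsBigO.of_bound (Real.exp (1 ^ 2 * (s.re + 1) ^ 2 / 2) *
          DA (fun n : Pr => mu n * 1) (fun n => nm n) (s.re + 1)) ?_
        filter_upwards [self_mem_nhdsWithin] with Y hY
        have hY' : 0 < Y := hY
        rw [neg_neg, Real.norm_of_nonneg (by positivity), mul_right_comm]
        exact h3.norm_SS_le one_pos hY' 0
    exact h2.comp s differentiableAt_id.neg
  · obtain ⟨h1, h2⟩ := (hA hs).integral_SS one_pos 0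
    have e : (fun τ : ℝ => f (Real.exp (1 * τ)) * cexp (-s * ((1 * τ : ℝ) : ℂ))) = fun η : ℝ =>
        cexp (-(η : ℂ) * s) * SS (fun n : Pr => mu n * 1) (fun n => nm n) 1 (Real.exp η) 0 := by
      funext τ
      rw [one_mul, mul_comm]
      congr 2
      ring
    have h3 := (Ku.gamc_subst one_pos f (-s) (e ▸ h1)).2
    rw [e, h2] at h3
    simp only [h3, ofReal_one, one_mul, ofReal_zero, mul_zero, add_zero]
    rw [mul_div_cancel_left₀ _ (LNt_ne_zero one_ne_zero s)]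
    exact x_mu hs

end Crest.Agent.R27.Z

theorem Crest.Agent.R27.Ab.stZF_of {R : Type} [CommRing R] [IsDomain R] [IsPrincipalIdealRing R] [Ab.Abs R]
    (h : Ab.StM1 R) : Ab.StZF R :=
  letI : Z.Bd := ⟨R⟩
  Z.x_zf fun ε hε => (h 1 ε one_pos hε).imp fun C hC U X A h1 h2 h3 => by
    have := hC (fun _ => 1) U U X 0 A (by simp) h1 h2 le_rfl h3
    simp only [abs_zero, add_zero, Real.one_rpow, mul_one] at this
    exact this
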