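import Crest.Agent.R27.Abs

/-! Row 27, block X (owner helper12): the interface between the Möbius mean square (P + M1) and the extraction. -/

set_option autoImplicit false

namespace Crest.Agent.R27.Ab

/-- M1 with `j = 0`: mean square of the Möbius sums over the primary rows of norm at most `U` -/
def StM1 (R : Type) [CommRing R] [IsDomain R] [IsPrincipalIdealRing R] [Dt R] : Prop :=
  ∀ a ε : ℝ, 0 < a → 0 < ε → ∃ C : ℝ, ∀ (ρ : Cl R → ℂ) (Z U N t : ℝ) (A : Finset R),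
    (∀ x, ‖ρ x‖ ≤ 1) → 1 ≤ N → N ≤ U → U ≤ Z → (∀ k ∈ A, Prim k ∧ nm k ≤ U) →
    ∑ k ∈ A, ‖MS (fun n => ρ (cls n) * sx k n) a N t‖ ^ 2 ≤ C * Z ^ ε * (1 + |t|) ^ C * (U * N)

end Crest.Agent.R27.Ab
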